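import Vale.Agent.P265.H264.Count
import Vale.Agent.P265.H336.Iface

/-!
# The lower bound for the stable Morse number from the Morse inequalities
-/

open Set Manifold
open scoped ContDiff Topology

namespace Vale.Agent.P265.H264

open Vale.Agent.P265.Loc Vale.Agent.P265.AS

/-- The equivariant Betti numbers of the cyclic cover bound the stable Morse number. -/
theorem seventeen_le_of {V : Type} [NormedAddCommGroup V] [NormedSpace ℝ V]
    [FiniteDimensional ℝ V] {M N : Type} [MetricSpace M] [CompactSpace M] [Nonempty M]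
    [ChartedSpace V M] [IsManifold 𝓘(ℝ, V) ∞ M] [MetricSpace N] [CompactSpace N] {n : ℕ}
    (C : CycCover M N n) (hMI : MorseIneq) {k : Type} [Field k] (χ : k) (hχ : χ ^ n = 1)
    (h0 : 1 ≤ hh C.g (1 : k) univ ∅ 0)
    (h1 : 2 ≤ hh C.g χ univ ∅ 1) (h2 : 4 ≤ hh C.g χ univ ∅ 2) (h3 : 4 ≤ hh C.g χ univ ∅ 3)
    (h4 : 4 ≤ hh C.g χ univ ∅ 4) (h5 : 2 ≤ hh C.g χ univ ∅ 5) :
    17 ≤ StableMorseNumber V M := by
  refine le_stableMorseNumber 17 fun l F hF hQ => ?_
  rcases (Crit (𝓘(ℝ, V).prod 𝓘(ℝ, EuclideanSpace ℝ (Fin l))) F).finite_or_infinite with hfin | hinf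
  swap
  · rw [hinf.encard_eq]; exact le_top
  obtain ⟨idx, ν, hidx⟩ := hMI (V := V) C l F hF (fun _ => hQ) hfin
  let hb : ℕ → ℕ∞ := fun j => if j = 0 then 1 else if j = 1 then 2 else if j = 5 then 2 else 4
  have key : ∀ j < 6, hb j ≤ {x | x ∈ Crit (𝓘(ℝ, V).prod 𝓘(ℝ, EuclideanSpace ℝ (Fin l))) F ∧
      idx x = j + ν}.encard := by
    have aux : ∀ (j b : ℕ) (ψ : k), ψ ^ n = 1 → (b : Cardinal) ≤ hh C.g ψ univ ∅ j →
        (b : ℕ∞) ≤ {x | x ∈ Crit (𝓘(ℝ, V).prod 𝓘(ℝ, EuclideanSpace ℝ (Fin l))) F ∧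
          idx x = j + ν}.encard := by
      intro j b ψ hψ hb
      have h := hb.trans (hidx ψ hψ j)
      have h' := Nat.cast_le.1 h
      have hf : {x | x ∈ Crit (𝓘(ℝ, V).prod 𝓘(ℝ, EuclideanSpace ℝ (Fin l))) F ∧
          idx x = j + ν}.Finite := hfin.subset fun x hx => hx.1
      rw [← hf.cast_ncard_eq]
      exact_mod_cast h'
    intro j hj
    interval_cases j
    · exact aux 0 1 1 (one_pow n) (by exact_mod_cast h0)
    · exact aux 1 2 χ hχ (by exact_mod_cast h1)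
    · exact aux 2 4 χ hχ (by exact_mod_cast h2)
    · exact aux 3 4 χ hχ (by exact_mod_cast h3)
    · exact aux 4 4 χ hχ (by exact_mod_cast h4)
    · exact aux 5 2 χ hχ (by exact_mod_cast h5)
  have h := sum_le_encard _ idx ν hb 6 key
  refine le_trans (le_of_eq ?_) h
  simp [Finset.sum_range_succ, hb]
  norm_num

end Vale.Agent.P265.H264
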