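import Vale.Agent.P265.Flat.LDefs

/-!
# Counting critical points

The stable Morse number is at least `17` if every Morse function on `M × ℝᵏ` which is quadratic at
infinity has, for some index shift, at least `h j` critical points of shifted index `j`, with
`h 0 + ... + h 5 ≥ 17`.
-/

open Set Manifold
open scoped ContDiff Topology

namespace Vale.Agent.P265.H264

open Vale.Agent.P265.Loc

/-- `F` is a nondegenerate quadratic form outside of a compact set. -/
def QuadInf {M Z : Type*} [NormedAddCommGroup Z] [NormedSpace ℝ Z] (F : M × Z → ℝ) : Prop :=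
  ∃ (Q : QuadraticForm ℝ Z) (R : ℝ), (∀ v, (∀ w, QuadraticMap.polar Q v w = 0) → v = 0) ∧
    0 < R ∧ ∀ x z, R ≤ ‖z‖ → F (x, z) = Q z

theorem quadInf_of {M Z : Type*} [NormedAddCommGroup Z] [NormedSpace ℝ Z] (F : M × Z → ℝ)
    (h : Nontrivial Z → ∃ (Q : QuadraticForm ℝ Z) (R : ℝ),
      (∀ v, (∀ w, QuadraticMap.polar Q v w = 0) → v = 0) ∧
        0 < R ∧ ∀ x z, R ≤ ‖z‖ → F (x, z) = Q z) : QuadInf F := by
  rcases subsingleton_or_nontrivial Z with hZ | hZ
  · refine ⟨0, 1, fun v _ => Subsingleton.elim _ _, one_pos, fun x z hz => ?_⟩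
    rw [Subsingleton.elim z 0, norm_zero] at hz
    exact absurd hz (by norm_num)
  · exact h hZ

theorem le_stableMorseNumber {V : Type*} [NormedAddCommGroup V] [NormedSpace ℝ V]
    {M : Type*} [TopologicalSpace M] [ChartedSpace V M] (n : ℕ∞)
    (h : ∀ (k : ℕ) (F : M × EuclideanSpace ℝ (Fin k) → ℝ),
      IsMorse (𝓘(ℝ, V).prod 𝓘(ℝ, EuclideanSpace ℝ (Fin k))) F → QuadInf F →
        n ≤ (Crit (𝓘(ℝ, V).prod 𝓘(ℝ, EuclideanSpace ℝ (Fin k))) F).encard) :
    n ≤ StableMorseNumber V M := by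
  unfold StableMorseNumber MorseNumberAt
  exact le_iInf fun k => le_iInf fun F => le_iInf fun hF => le_iInf fun hQ =>
    h k F hF (quadInf_of F hQ)

/-- Fibres of an index function over distinct values are disjoint. -/
theorem sum_le_encard {X : Type*} (C : Set X) (idx : X → ℕ) (ν : ℕ) (h : ℕ → ℕ∞) (n : ℕ)
    (hj : ∀ j < n, h j ≤ {x | x ∈ C ∧ idx x = j + ν}.encard) :
    ∑ j ∈ Finset.range n, h j ≤ C.encard := by
  have key : ∀ m ≤ n, ∑ j ∈ Finset.range m, h j ≤ {x | x ∈ C ∧ idx x < m + ν}.encard := by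
    intro m
    induction m with
    | zero => intro _; simp
    | succ m ih =>
      intro hm
      rw [Finset.sum_range_succ]
      have hd : Disjoint {x | x ∈ C ∧ idx x < m + ν} {x | x ∈ C ∧ idx x = m + ν} := by
        rw [Set.disjoint_left]
        rintro x ⟨_, h1⟩ ⟨_, h2⟩
        omega
      have hu : {x | x ∈ C ∧ idx x < m + ν} ∪ {x | x ∈ C ∧ idx x = m + ν} ⊆
          {x | x ∈ C ∧ idx x < m + 1 + ν} := by
        rintro x (⟨h1, h2⟩ | ⟨h1, h2⟩)
        · exact ⟨h1, by omega⟩
        · exact ⟨h1, by omega⟩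
      calc _ ≤ {x | x ∈ C ∧ idx x < m + ν}.encard + {x | x ∈ C ∧ idx x = m + ν}.encard :=
            add_le_add (ih (by omega)) (hj m (by omega))
        _ = ({x | x ∈ C ∧ idx x < m + ν} ∪ {x | x ∈ C ∧ idx x = m + ν}).encard :=
            (encard_union_eq hd).symm
        _ ≤ _ := encard_le_encard hu
  exact (key n le_rfl).trans (encard_le_encard fun x hx => hx.1)

end Vale.Agent.P265.H264
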