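import Vale.Agent.P265.H60.Conn
import Vale.Agent.P265.H185.Main
import Vale.Agent.P265.H336.MorseIneq
import Vale.Agent.P265.H423.Cover

/-!
# Disproof of the stable Morse form of the Arnold conjecture: assembly
-/

open Set Manifold
open scoped ContDiff

namespace Vale.Agent.P265.H264

open Vale.Agent.P265.Loc

/-- A closed symplectic six-manifold with a nondegenerate Hamiltonian flow having at most sixteen
fixed points, and stable Morse number at least seventeen. -/
theorem counterexample :
    ∃ (M : Type) (_ : TopologicalSpace M) (_ : T2Space M) (_ : CompactSpace M)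
      (_ : ConnectedSpace M) (_ : ChartedSpace (EuclideanSpace ℝ (Fin 6)) M)
      (_ : IsManifold 𝓘(ℝ, EuclideanSpace ℝ (Fin 6)) ∞ M)
      (om : FormField (EuclideanSpace ℝ (Fin 6)) M) (H : ℝ → M → ℝ) (φ : ℝ → M → M),
      IsSymplectic om ∧ IsHamiltonianFlow om H φ ∧
        NondegFixedPoints (EuclideanSpace ℝ (Fin 6)) (φ 1) ∧
        (Fix0 φ).encard ≤ 16 ∧ 17 ≤ StableMorseNumber (EuclideanSpace ℝ (Fin 6)) M := by
  obtain ⟨om, H, φ, h1, h2, h3, h4⟩ := Dis.upper
  exact ⟨Dis.M, inferInstance, inferInstance, inferInstance, inferInstance, inferInstance,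
    inferInstance, om, H, φ, h1, h2, h3, h4, Top.seventeen_le_stableMorse AS.morseIneq⟩

end Vale.Agent.P265.H264
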